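import Vale.Agent.P249.H557.ThmB

/-!
# Polylogarithmic dimension reduction in `L_p` for flat sets and for finite subsets of `L_q`, `q > p`
-/

open MeasureTheory
open scoped ENNReal

namespace Vale.Agent.Results.P249.APolylogFlat

/-- The finite subset `X` of `L_q(μ)` has a map into `ℓ_p^d` of distortion at most `D`. -/
def Embeds {q : ℝ≥0∞} [Fact (1 ≤ q)] {Ω : Type} [MeasurableSpace Ω] {μ : Measure Ω}
    (X : Finset (Lp ℝ q μ)) (p : ℝ≥0∞) [Fact (1 ≤ p)] (d : ℕ) (D : ℝ) : Prop :=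
  ∃ f : Lp ℝ q μ → PiLp p (fun _ : Fin d => ℝ), ∃ s : ℝ, 0 < s ∧ ∀ x ∈ X, ∀ y ∈ X,
    s * ‖x - y‖ ≤ ‖f x - f y‖ ∧ ‖f x - f y‖ ≤ D * s * ‖x - y‖

theorem result (p : ℝ≥0∞) [Fact (1 ≤ p)] :
    -- (1) sets with comparable `L_p` and `L_r` distances on a probability space, `r > p`
    (∀ r : ℝ≥0∞, p < r → ∃ C : ℝ, 0 < C ∧ ∀ n : ℕ, 2 ≤ n → ∀ A : ℝ, 1 ≤ A →
      ∀ ε : ℝ, 0 < ε → ε ≤ 1 → ∀ (Ω : Type) [MeasurableSpace Ω] (μ : Measure Ω)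
        [IsProbabilityMeasure μ] (X : Finset (Lp ℝ p μ)), X.card ≤ n →
        (∀ x ∈ X, ∀ y ∈ X,
          eLpNorm (⇑(x - y)) r μ ≤ ENNReal.ofReal A * eLpNorm (⇑(x - y)) p μ) →
        ∃ d : ℕ, (d : ℝ) ≤ C * (A * (1 + Real.log n) / ε) ^ C ∧ Embeds X p d (1 + ε)) ∧
    -- (2) all `n`-point subsets of `L_q(μ)`, `p < q ≤ 2`
    (∀ (q : ℝ≥0∞) [Fact (1 ≤ q)], p < q → q ≤ 2 → ∃ C : ℝ, 0 < C ∧ ∀ n : ℕ, 2 ≤ n →
      ∀ ε : ℝ, 0 < ε → ε ≤ 1 → ∀ (Ω : Type) [MeasurableSpace Ω] (μ : Measure Ω)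
        (X : Finset (Lp ℝ q μ)), X.card ≤ n →
        ∃ d : ℕ, (d : ℝ) ≤ C * ((1 + Real.log n) / ε) ^ C ∧ Embeds X p d (1 + ε)) ∧
    -- (3) `n`-point subsets of `L_p(μ)` with a map of distortion `K` into some `L_q(ν)`, `p < q ≤ 2`
    (∀ (q : ℝ≥0∞) [Fact (1 ≤ q)], p < q → q ≤ 2 → ∃ C : ℝ, 0 < C ∧ ∀ n : ℕ, 2 ≤ n →
      ∀ ε : ℝ, 0 < ε → ε ≤ 1 → ∀ K : ℝ, 1 ≤ K → ∀ (Ω : Type) [MeasurableSpace Ω] (μ : Measure Ω)
        (X : Finset (Lp ℝ p μ)), X.card ≤ n →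
        (∃ (Ω' : Type) (_ : MeasurableSpace Ω') (ν : Measure Ω') (h : Lp ℝ p μ → Lp ℝ q ν),
          ∀ x ∈ X, ∀ y ∈ X, ‖x - y‖ ≤ ‖h x - h y‖ ∧ ‖h x - h y‖ ≤ K * ‖x - y‖) →
        ∃ d : ℕ, (d : ℝ) ≤ C * ((1 + Real.log n) / ε) ^ C ∧ Embeds X p d ((1 + ε) * K)) := by
  classical
  refine ⟨fun r hr => ?_, fun q _ hpq hq => ?_, fun q _ hpq hq => ?_⟩
  · obtain ⟨C, hC, h⟩ := Vale.Agent.P249.H557.embed_flat p r hr
    exact ⟨C, by linarith, h⟩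
  · obtain ⟨C, hC, h⟩ := Vale.Agent.P249.H557.embed_lq p q hpq hq
    exact ⟨C, by linarith, h⟩
  · obtain ⟨C, hC, H⟩ := Vale.Agent.P249.H557.embed_lq p q hpq hq
    refine ⟨C, by linarith, fun n hn ε hε hε1 K hK Ω _ μ X hX hh => ?_⟩
    obtain ⟨Ω', _, ν, h, hh⟩ := hh
    obtain ⟨d, hd, f, s, hs, hf⟩ := H n hn ε hε hε1 Ω' ν (X.image h)
      (Finset.card_image_le.trans hX)
    refine ⟨d, hd, fun x => f (h x), s, hs, fun x hx y hy => ?_⟩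
    obtain ⟨h1, h2⟩ := hf (h x) (Finset.mem_image_of_mem h hx) (h y) (Finset.mem_image_of_mem h hy)
    obtain ⟨h3, h4⟩ := hh x hx y hy
    constructor
    · exact (mul_le_mul_of_nonneg_left h3 hs.le).trans h1
    · refine h2.trans ?_
      calc (1 + ε) * s * ‖h x - h y‖ ≤ (1 + ε) * s * (K * ‖x - y‖) :=
            mul_le_mul_of_nonneg_left h4 (by positivity)
        _ = (1 + ε) * K * s * ‖x - y‖ := by ring

end Vale.Agent.Results.P249.APolylogFlat
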