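import Vale.Agent.P249.TP3.Main
import Vale.Agent.P249.H75.DualAll

/-!
# Lower and upper bounds for the dimension `d_p(n, D)`, for every `p ≠ 2`
-/

open MeasureTheory Filter Asymptotics
open scoped ENNReal

namespace Vale.Agent.Results.P249.GrowthBounds

/-- The finite subset `X` of `L_p(μ)` has a map into `ℓ_p^d` of distortion at most `D`. -/
def Embeds {p : ℝ≥0∞} [Fact (1 ≤ p)] {Ω : Type} [MeasurableSpace Ω] {μ : Measure Ω}
    (X : Finset (Lp ℝ p μ)) (d : ℕ) (D : ℝ) : Prop :=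
  ∃ f : Lp ℝ p μ → PiLp p (fun _ : Fin d => ℝ), ∃ s : ℝ, 0 < s ∧ ∀ x ∈ X, ∀ y ∈ X,
    s * ‖x - y‖ ≤ ‖f x - f y‖ ∧ ‖f x - f y‖ ≤ D * s * ‖x - y‖

/-- `d_p(n, D)`: the least `d` such that every `n`-point subset of every `L_p(μ)` has a map into
`ℓ_p^d` of distortion at most `D`. -/
noncomputable def dimLp (p : ℝ≥0∞) [Fact (1 ≤ p)] (n : ℕ) (D : ℝ) : ℕ :=
  sInf {d : ℕ | ∀ (Ω : Type) [MeasurableSpace Ω] (μ : Measure Ω) (X : Finset (Lp ℝ p μ)),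
    X.card = n → Embeds X d D}

lemma dimLp_eq (p : ℝ≥0∞) [Fact (1 ≤ p)] (n : ℕ) (D : ℝ) :
    dimLp p n D = Vale.Agent.P249.dimLp p n D := rfl

lemma Embeds.mono {p : ℝ≥0∞} [Fact (1 ≤ p)] {Ω : Type} [MeasurableSpace Ω] {μ : Measure Ω}
    {X : Finset (Lp ℝ p μ)} {d : ℕ} {D D' : ℝ} (h : Embeds X d D) (hD : D ≤ D') :
    Embeds X d D' := by
  obtain ⟨f, s, hs, hf⟩ := h
  exact ⟨f, s, hs, fun x hx y hy => ⟨(hf x hx y hy).1, (hf x hx y hy).2.trans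
    (mul_le_mul_of_nonneg_right (mul_le_mul_of_nonneg_right hD hs.le) (norm_nonneg _))⟩⟩

/-- diagonal choice of a function tending to infinity. -/
lemma exists_diag (P : ℕ → ℕ → Prop) (h : ∀ k : ℕ, ∃ n₀ : ℕ, ∀ n : ℕ, n₀ ≤ n → P k n) :
    ∃ (g : ℕ → ℕ) (n₁ : ℕ), Tendsto g atTop atTop ∧ ∀ n : ℕ, n₁ ≤ n → P (g n) n := by
  classical
  choose N hN using h
  refine ⟨fun n => Nat.findGreatest (fun k => N k ≤ n) n, N 0, ?_, ?_⟩
  · rw [tendsto_atTop]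
    intro k
    filter_upwards [eventually_ge_atTop (max k (N k))] with n hn
    exact Nat.le_findGreatest ((le_max_left _ _).trans hn) ((le_max_right _ _).trans hn)
  · intro n hn
    have h1 : N (Nat.findGreatest (fun k => N k ≤ n) n) ≤ n :=
      Nat.findGreatest_spec (P := fun k => N k ≤ n) (Nat.zero_le n) hn
    exact hN _ n h1

/-- the upper bound for `d_p(n, D)`, from the bound for `1 + ε`. -/
lemma dimLp_le (p : ℝ≥0∞) [Fact (1 ≤ p)] (hp : p ≠ ∞) {θ : ℝ} (hθ : 0 ≤ θ)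
    (h : ∃ C : ℝ, 0 < C ∧ ∀ n : ℕ, 2 ≤ n → ∀ ε : ℝ, 0 < ε → ε ≤ 1 →
      ∀ (Ω : Type) [MeasurableSpace Ω] (μ : Measure Ω) (X : Finset (Lp ℝ p μ)), X.card ≤ n →
        ∃ (d : ℕ) (f : Lp ℝ p μ → PiLp p (fun _ : Fin d => ℝ)),
          (d : ℝ) ≤ Real.exp (C * (1 + Real.log n) ^ θ / ε) ∧
            Vale.Agent.P249.DistortionAtMost X f (1 + ε)) {D : ℝ} (hD : 1 < D) :
    ∃ C : ℝ, 0 < C ∧ ∀ n : ℕ, 2 ≤ n →
      (dimLp p n D : ℝ) ≤ Real.exp (C * Real.log n ^ θ) := by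
  obtain ⟨C, hC, h⟩ := h
  set ε : ℝ := min 1 (D - 1) with hε
  have hε0 : 0 < ε := lt_min one_pos (by linarith)
  have hε1 : ε ≤ 1 := min_le_left _ _
  have hεD : 1 + ε ≤ D := by
    have := min_le_right 1 (D - 1)
    linarith
  refine ⟨C * 3 ^ θ / ε, by positivity, fun n hn => ?_⟩
  have hnr : (2 : ℝ) ≤ n := by exact_mod_cast hn
  have hlog2 : Real.log 2 ≤ Real.log n := Real.log_le_log (by norm_num) hnr
  have hl2 := Real.log_two_gt_d9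
  have hlog : 0 ≤ Real.log n := by linarith
  have hadm : Vale.Agent.P249.Admissible p n D
      ⌊Real.exp (C * (1 + Real.log n) ^ θ / ε)⌋₊ := by
    refine Vale.Agent.P249.admissible_floor p hp fun Ω _ μ X hX => ?_
    obtain ⟨d, f, hd, s, hs, hf⟩ := h n hn ε hε0 hε1 Ω μ X hX.le
    refine ⟨d, f, hd, s, hs, fun x hx y hy => ⟨(hf x hx y hy).1, (hf x hx y hy).2.trans ?_⟩⟩
    exact mul_le_mul_of_nonneg_right (mul_le_mul_of_nonneg_right hεD hs.le) (norm_nonneg _)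
  rw [dimLp_eq]
  have h1 : (Vale.Agent.P249.dimLp p n D : ℝ) ≤
      (⌊Real.exp (C * (1 + Real.log n) ^ θ / ε)⌋₊ : ℝ) := by exact_mod_cast hadm.dimLp_le
  refine (h1.trans (Nat.floor_le (Real.exp_pos _).le)).trans (Real.exp_le_exp.2 ?_)
  have h2 : (1 + Real.log n) ^ θ ≤ 3 ^ θ * Real.log n ^ θ := by
    rw [← Real.mul_rpow (by norm_num) hlog]
    exact Real.rpow_le_rpow (by linarith) (by linarith) hθ
  calc C * (1 + Real.log n) ^ θ / ε ≤ C * (3 ^ θ * Real.log n ^ θ) / ε := by gcongr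
    _ = C * 3 ^ θ / ε * Real.log n ^ θ := by ring

lemma expo_lt_one {p : ℝ≥0∞} (hp1 : 1 < p) (hptop : p ≠ ∞) : |1 - 2 / p.toReal| < 1 := by
  have hP1 : 1 < p.toReal := by
    have := (ENNReal.toReal_lt_toReal ENNReal.one_ne_top hptop).2 hp1
    simpa using this
  have h0 : 0 < p.toReal := by linarith
  have h1 : 2 / p.toReal < 2 := by rw [div_lt_iff₀ h0]; linarith
  have h2 : 0 < 2 / p.toReal := by positivity
  rw [abs_lt]
  constructor <;> linarith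

theorem result (p : ℝ≥0∞) [Fact (1 ≤ p)] (hp1 : 1 < p) (hptop : p ≠ ∞) (hp2 : p ≠ 2) :
    |1 - 2 / p.toReal| < 1 ∧
    -- (1) for every `D > 1`: `exp (exp ((log log n) ^ (1 / 20))) ≤ d_p(n, D)` for all large `n`, and
    -- `d_p(n, D) ≤ exp (C (log n) ^ |1 - 2 / p|)` for all `n ≥ 2`
    (∀ D : ℝ, 1 < D →
      (∃ n₀ : ℕ, ∀ n : ℕ, n₀ ≤ n →
        Real.exp (Real.exp ((Real.log (Real.log n)) ^ (1 / 20 : ℝ))) ≤ (dimLp p n D : ℝ)) ∧
      ∃ C : ℝ, 0 < C ∧ ∀ n : ℕ, 2 ≤ n →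
        (dimLp p n D : ℝ) ≤ Real.exp (C * Real.log n ^ |1 - 2 / p.toReal|)) ∧
    -- (2) one sequence of `n`-point sets `X_n`, good for all distortions: every map of `X_n` into
    -- `ℓ_p^d` with distortion at most `ω n` has `d ≥ exp (exp ((log log n) ^ (1 / 20)))`, `ω n → ∞`
    (∃ (ω : ℕ → ℝ) (n₀ : ℕ), Tendsto ω atTop atTop ∧ ∀ n : ℕ, n₀ ≤ n →
      ∃ (Ω : Type) (_ : MeasurableSpace Ω) (μ : Measure Ω) (_ : IsProbabilityMeasure μ)
        (X : Finset (Lp ℝ p μ)), X.card = n ∧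
        ∀ (d : ℕ) (D : ℝ), D ≤ ω n → Embeds X d D →
          Real.exp (Real.exp ((Real.log (Real.log n)) ^ (1 / 20 : ℝ))) ≤ d) ∧
    -- (3) every set of at most `n` points of any `L_p(μ)` has a map into `ℓ_p^d` of distortion
    -- `1 + ε`, where `d ≤ exp (C (1 + log n) ^ |1 - 2 / p| / ε)`, uniformly in `n` and `ε`
    (∃ C : ℝ, 0 < C ∧ ∀ n : ℕ, 2 ≤ n → ∀ ε : ℝ, 0 < ε → ε ≤ 1 →
      ∀ (Ω : Type) [MeasurableSpace Ω] (μ : Measure Ω) (X : Finset (Lp ℝ p μ)), X.card ≤ n →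
        ∃ d : ℕ, (d : ℝ) ≤ Real.exp (C * (1 + Real.log n) ^ |1 - 2 / p.toReal| / ε) ∧
          Embeds X d (1 + ε)) := by
  classical
  have hup := Vale.Agent.P249.H75.dual p hp1 hptop hp2
  refine ⟨expo_lt_one hp1 hptop, fun D hD => ⟨?_,
    dimLp_le p hptop (abs_nonneg _) hup hD⟩, ?_, ?_⟩
  · exact Vale.Agent.P249.TP3.dimLp_of_final3 Vale.Agent.P249.TP3.specFinal3 hp1 hptop hp2 hD
  · obtain ⟨g, n₁, hg, hP⟩ := exists_diag
      (fun k n => ∃ (Ω : Type) (_ : MeasurableSpace Ω) (μ : Measure Ω) (_ : IsProbabilityMeasure μ)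
        (X : Finset (Lp ℝ p μ)), X.card = n ∧
        ∀ (d : ℕ), Embeds X d ((k : ℝ) + 1) →
          Real.exp (Real.exp ((Real.log (Real.log n)) ^ (1 / 20 : ℝ))) ≤ d)
      (fun k => Vale.Agent.P249.TP3.specFinal3 p hp1 hptop hp2 ((k : ℝ) + 1)
        (by linarith [Nat.cast_nonneg (α := ℝ) k]))
    refine ⟨fun n => (g n : ℝ), n₁, tendsto_natCast_atTop_atTop.comp hg, fun n hn => ?_⟩
    obtain ⟨Ω, i, μ, j, X, hX, h⟩ := hP n hn
    exact ⟨Ω, i, μ, j, X, hX, fun d D hD hE => h d (hE.mono (by linarith))⟩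
  · obtain ⟨C, hC, h⟩ := hup
    refine ⟨C, hC, fun n hn ε hε hε1 Ω _ μ X hX => ?_⟩
    obtain ⟨d, f, hd, hf⟩ := h n hn ε hε hε1 Ω μ X hX
    exact ⟨d, hd, f, hf⟩

end Vale.Agent.Results.P249.GrowthBounds
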